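import Vale.Agent.P241GA.Tf
import Mathlib.CategoryTheory.Action.Limits
import Mathlib.CategoryTheory.Monoidal.Closed.FunctorCategory.Groupoid

/-!
# P241G: categories of objects with an action
-/

open CategoryTheory MonoidalCategory Limits
open Functor.LaxMonoidal Functor.OplaxMonoidal

noncomputable section

namespace Vale.Agent.P241GK

open P251.G P251.G.LC P251.H P241GA

universe v u u'

variable (G : Type) [Group G] {V : Type u} [Category.{v} V] {W : Type u'} [Category.{v} W]

scoped instance colimA [HasColimitsOfSize.{0, 0} V] : HasColimitsOfSize.{0, 0} (Action V G) where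
  has_colimits_of_shape _ _ := inferInstance

/-- the adjunction between the categories of objects with an action -/
def adjA {r : V ⥤ W} {q : W ⥤ V} (adj : r ⊣ q) : r.mapAction G ⊣ q.mapAction G where
  unit :=
    { app := fun X => ⟨adj.unit.app X.V, fun g => adj.unit.naturality (X.ρ g)⟩
      naturality := fun _ _ f => Action.hom_ext _ _ (adj.unit.naturality f.hom) }
  counit :=
    { app := fun X => ⟨adj.counit.app X.V, fun g => adj.counit.naturality (X.ρ g)⟩
      naturality := fun _ _ f => Action.hom_ext _ _ (adj.counit.naturality f.hom) }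
  left_triangle_components X := Action.hom_ext _ _ (adj.left_triangle_components X.V)
  right_triangle_components X := Action.hom_ext _ _ (adj.right_triangle_components X.V)

theorem adjA_unit {r : V ⥤ W} {q : W ⥤ V} (adj : r ⊣ q) (X : Action V G) :
    ((adjA G adj).unit.app X).hom = adj.unit.app X.V := rfl

theorem adjA_counit {r : V ⥤ W} {q : W ⥤ V} (adj : r ⊣ q) (X : Action W G) :
    ((adjA G adj).counit.app X).hom = adj.counit.app X.V := rfl

variable [MonoidalCategory V] [MonoidalCategory W]

scoped instance closedA [MonoidalClosed V] : MonoidalClosed (Action V G) :=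
  MonoidalClosed.ofEquiv _ (Action.functorCategoryEquivalence V G).toAdjunction

scoped instance braidedA [BraidedCategory V] [BraidedCategory W] (j : V ⥤ W) [j.Braided] :
    (j.mapAction G).Braided where
  braided X Y := Action.hom_ext _ _ (Functor.LaxBraided.braided (F := j) X.V Y.V)

/-- the evaluation `F ⊗ j (S ⊗ K) ⟶ j K` -/
def ev0 (j : V ⥤ W) [j.Monoidal] (F : W) (S : V) (lam : F ⊗ j.obj S ⟶ 𝟙_ W) (K : V) :
    F ⊗ j.obj (S ⊗ K) ⟶ j.obj K :=
  F ◁ δ j S K ≫ (α_ F (j.obj S) (j.obj K)).inv ≫ lam ▷ j.obj K ≫ (λ_ (j.obj K)).hom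

/-- `F ⊗ (F ⊗ ⋯ ⊗ A)` -/
def tf0 (F A : W) : ℕ → W
  | 0 => A
  | n + 1 => F ⊗ tf0 F A n

end Vale.Agent.P241GK
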