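import Vale.Agent.P241GK.Rot
import Vale.Agent.P241GP.Emb
import Vale.Agent.P241GR.M
import Vale.Agent.P251CV.R
import Vale.Agent.P251CX.Dic

/-!
# P241G: the data of the concrete model
-/

open CategoryTheory MonoidalCategory Topology OnePoint

noncomputable section

namespace Vale.Agent.P241GK

open P251.H P251CA P251CA.CF P241GA P241GX P241GP P241GR P251CR
open P251.G (LC)
open P251.G.LC (ofHomeo)
open P251CX (OSp Emb ap)
open Sp0 (euc)

/-- the morphism given by a pair -/
def em {m n : ℕ} (h : Emb m n) : euc m ⟶ euc n := P251CJ.eh (.some h)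

theorem app_em {m n : ℕ} (h : Emb m n) (x : Fin m → ℝ) :
    LC.app (em h).hom (vp x) = vp (ap h x) := rfl

variable (G : Type) [Group G] [Finite G]

/-- the level `a ρ` -/
abbrev lev (a : ℕ) : Sp0 := euc (Nat.card G * a)

omit [Group G] in
variable {G} in
theorem lev_ext {a : ℕ} {b : Sp0} {f g : lev G a ⟶ b}
    (h : ∀ s : Fin a → G → ℝ, LC.app f.hom (vp (cd s)) = LC.app g.hom (vp (cd s))) : f = g :=
  Sp0.app_ext fun x => by
    obtain ⟨s, rfl⟩ := cd_surj (G := G) (a := a) x
    exact h s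

/-- the action on `a ρ` -/
def rhoG (a : ℕ) : G →* End (lev G a) where
  toFun g := em (act g a)
  map_one' := lev_ext fun s => congrArg vp ((ap_act 1 s).trans (congrArg cd (tw_one s)))
  map_mul' g h := lev_ext fun s => (congrArg vp ((ap_act _ s).trans ((congrArg cd
    (tw_mul g h s)).trans ((ap_act g _).symm.trans (congrArg (ap _) (ap_act h s).symm))))).trans rfl

variable {G} in
theorem app_rhoG {a : ℕ} (g : G) (s : Fin a → G → ℝ) :
    LC.app (rhoG G a g).hom (vp (cd s)) = vp (cd (tw g s)) := congrArg vp (ap_act g s)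

theorem isLin_rhoG (a : ℕ) (g : G) : IsLin (rhoG G a g) :=
  ⟨⟨⟨fun x => cd (tw g (dc x)), fun _ _ => rfl⟩, fun _ _ => rfl⟩, fun x =>
    (congrArg (fun y => LC.app (rhoG G a g).hom (vp y)) (cd_dc x).symm).trans (app_rhoG g _)⟩

/-- the representation `a ρ` -/
abbrev AG (a : ℕ) : Action Sp0 G := ⟨lev G a, rhoG G a⟩

/-- the coordinates on `ρ` -/
def eG : Vg G ≅ SA (AG G 1) :=
  Action.mkIso (ofHomeo (X := (Vg G).V) (Y := (lev G 1).s)
    ((Homeomorph.funUnique (Fin 1) (G → ℝ)).symm.trans (cdH G 1))) fun g =>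
      LC.hom_ext fun v => (app_rhoG g fun _ : Fin 1 => v).symm

theorem app_eG (v : G → ℝ) :
    LC.app (eG G).hom.hom (OnePoint.some (X := G → ℝ) v) = vp (cd fun _ : Fin 1 => v) := rfl

/-- the desuspension by `ρ` -/
abbrev FG : Action CF G := FA (AG G 1)

/-- orthogonal spectra with the closed symmetric monoidal structure -/
abbrev M0 : Type 1 := RM P251CV.R

/-- the model -/
abbrev MG : Type 1 := Action M0 G

/-- the reflector -/
abbrev rA : Action CF G ⥤ MG G := (RM.r P251CV.R).mapAction G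

/-- the inclusion -/
abbrev qA : MG G ⥤ Action CF G := (RM.q P251CV.R).mapAction G

/-- the adjunction -/
def adG : rA G ⊣ qA G := adjA G (RM.adj P251CV.R)

/-- the underlying morphism -/
def nwMap {X Y : P251C.OSp} (g : X ⟶ Y) : P251CX.nw X ⟶ P251CX.nw Y :=
  ⟨fun n => g.app n, fun n => ⟨(g.app n).continuous, g.pt n, fun m e x => g.nat m n e x⟩⟩

/-- the underlying morphism, back -/
def nwInv {X Y : P251C.OSp} (f : P251CX.nw X ⟶ P251CX.nw Y) : X ⟶ Y :=
  ⟨fun n => ⟨f.app n, (f.ok n).1⟩, fun n => (f.ok n).2.1, fun m n e x => (f.ok n).2.2 m e x⟩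

/-- the underlying orthogonal spectrum -/
def o0 : M0 ⥤ OSp where
  obj := P251CX.nw
  map := nwMap
  map_id _ := rfl
  map_comp _ _ := rfl

instance : o0.Faithful where
  map_injective h := congrArg nwInv h

instance : o0.Full where
  map_surjective f := ⟨nwInv f, rfl⟩

/-- the underlying orthogonal `G`-spectrum -/
abbrev oA : MG G ⥤ Action OSp G := o0.mapAction G

omit [Finite G] in
theorem oA_surj : Function.Surjective (oA G).obj := fun X =>
  ⟨(P251CX.F.mapAction G).obj X, rfl⟩

/-- Row Sh. -/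
def Sh : Prop := ∀ X : MG G,
  IsShG ((oA G).obj X) ((oA G).obj ((ihom ((rA G).obj (FG G))).obj X))

end Vale.Agent.P241GK
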