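import Vale.Agent.P241GK.Uel

/-!
# P241G: the dictionary of the concrete model
-/

open CategoryTheory MonoidalCategory Topology OnePoint Matrix Limits

noncomputable section

namespace Vale.Agent.P241GK

open P251.H P251CA P251CA.CF P241GA P241GX P241GP P241GR P241GA.GIn P251CR
open P251.G (LC)
open P251CX (OSp Emb ap Pm nw IsFree pm_ext)
open P251.St (Space toLC)
open P241.St (GSpace)
open Sp0 (euc)

/-- the inclusion -/
abbrev q0 : M0 ⥤ CF := RM.q P251CV.R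

/-- the reflector -/
abbrev r0 : CF ⥤ M0 := RM.r P251CV.R

section

variable {X Y : M0} {m n : ℕ} {A : Space}

/-- a point of the continuous functor as a point of a level -/
def dn0 (x : OnePoint ((q0.obj X).obj (euc n))) : (o0.obj X).sp n :=
  P251CI.dn (X := X) (a := euc n) x

/-- a point of a level as a point of the continuous functor -/
def up0 (x : (o0.obj X).sp n) : OnePoint ((q0.obj X).obj (euc n)) :=
  P251CI.up (X := X) (euc n) x

theorem dn0_up0 (x : (o0.obj X).sp n) : dn0 (up0 x) = x := P251CI.dn_up (X := X) (euc n) x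

theorem dn0_inj {x y : OnePoint ((q0.obj X).obj (euc n))} (h : dn0 x = dn0 y) : x = y :=
  P251CI.dn_injective (X := X) (a := euc n) h

theorem dn0_act (h : Emb m n) (x : OnePoint ((q0.obj X).obj (euc m))) :
    dn0 ((q0.obj X).act (em h) x) = (o0.obj X).ac h (dn0 x) :=
  P251CI.dn_act_eh (X := X) (.some h) x

theorem dn0_fn (φ : X ⟶ Y) (x : OnePoint ((q0.obj X).obj (euc n))) :
    dn0 (fn (q0.map φ) x) = (o0.map φ).app n (dn0 x) := P251CI.dn_fn (X := X) (Y := Y) φ x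

/-- a morphism of `PQ` as a based map -/
def toPm (u : PQ.ofLC (toLC A) ⟶ (q0.obj X).obj (euc n)) : Pm A (o0.obj X) n :=
  ⟨fun k => dn0 (PQ.app u k), PQ.plot_app_ofLC (X := toLC A) u, congrArg dn0 (PQ.app_infty u)⟩

/-- a based map as a morphism of `PQ` -/
def ofPm (u : Pm A (o0.obj X) n) : PQ.ofLC (toLC A) ⟶ (q0.obj X).obj (euc n) :=
  P251CP.ofPl (K := toLC A) (fun k => up0 (u.fn k))
    ((congrArg up0 u.based).trans (P251CI.up_pt (X := X) (euc n)))
    (P251CI.up_plot (X := X) (euc n) (K := CH.of (OnePoint (toLC A))) u.cont)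

end

variable (G : Type) [Group G] [Finite G]

scoped instance ginM : GIn G (MG G) := P241GM.refl (adG G) P241GM.hjA P241GM.hfinA

variable {G} {a : ℕ} {K K' : GSpace G} {X Y : MG G}

/-- the comparison -/
def tI (a : ℕ) (K : GSpace G) :
    (TF (MG G) a).obj (gl K) ≅ (rA G).obj ((TF (CG G) a).obj (gl K)) :=
  P241GM.tfIso (rA G) a (gl K)

/-- the adjoint morphism -/
def ad : ((TF (MG G) a).obj (gl K) ⟶ X) ≃ ((TF (CG G) a).obj (gl K) ⟶ (qA G).obj X) :=
  (tI a K).homFromEquiv.trans ((adG G).homEquiv _ _)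

theorem ad_eq (f : (TF (MG G) a).obj (gl K) ⟶ X) :
    ad f = (adG G).homEquiv _ _ ((tI a K).inv ≫ f) := rfl

theorem ad_post (f : (TF (MG G) a).obj (gl K) ⟶ X) (φ : X ⟶ Y) :
    ad (f ≫ φ) = ad f ≫ (qA G).map φ := by
  rw [ad_eq, ad_eq, ← Category.assoc, Adjunction.homEquiv_naturality_right]

theorem ad_pre {a' : ℕ} (p : (TF (MG G) a').obj (gl K') ⟶ (TF (MG G) a).obj (gl K))
    (p' : (TF (CG G) a').obj (gl K') ⟶ (TF (CG G) a).obj (gl K))
    (h : p ≫ (tI a K).hom = (tI a' K').hom ≫ (rA G).map p') (f : (TF (MG G) a).obj (gl K) ⟶ X) :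
    ad (p ≫ f) = p' ≫ ad f := by
  rw [ad_eq, ad_eq, ← Adjunction.homEquiv_naturality_left, ← (tI a K).hom_inv_id_assoc f,
    reassoc_of% h, Iso.inv_hom_id_assoc, Iso.hom_inv_id_assoc]

/-- the underlying morphism of continuous functors -/
def av (f : (TF (MG G) a).obj (gl K) ⟶ X) : TV a (gl K) ⟶ q0.obj X.V := (ad f).hom

/-- the universal element -/
abbrev uk (a : ℕ) (k : K.und.Pt) : OnePoint ((TV a (gl K)).obj (lev G a)) := ue a (K := gl K) k

/-- the action -/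
abbrev rk (a : ℕ) (K : GSpace G) (g : G) : TV a (gl K) ⟶ TV a (gl K) :=
  ((TF (CG G) a).obj (gl K)).ρ g

theorem uk_ext {Z : CF} {φ ψ : TV a (gl K) ⟶ Z} (h : ∀ k, fn φ (uk a k) = fn ψ (uk a k)) :
    φ = ψ := (cr_uel a (gl K) Z).1 (PQ.hom_ext' h)

theorem uk_ex {Z : M0} (u : Pm K.und (o0.obj Z) (Nat.card G * a)) :
    ∃ φ : TV a (gl K) ⟶ q0.obj Z, ∀ k, dn0 (fn φ (uk a k)) = u.fn k := by
  obtain ⟨φ, hφ⟩ := (cr_uel a (gl K) (q0.obj Z)).2 (ofPm u)
  exact ⟨φ, fun k => (congrArg (fun z : PQ.ofLC (toLC K.und) ⟶ (q0.obj Z).obj (lev G a) =>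
    dn0 (PQ.app z k)) hφ).trans (dn0_up0 _)⟩

/-- the based map given by a morphism -/
def elM (f : (TF (MG G) a).obj (gl K) ⟶ X) : Pm K.und ((oA G).obj X).V (Nat.card G * a) :=
  toPm (X := X.V) (uel a (gl K) ≫ P251CP.ap (av f) _)

theorem elM_fn (f : (TF (MG G) a).obj (gl K) ⟶ X) (k : K.und.Pt) :
    (elM f).fn k = dn0 (fn (av f) (uk a k)) := rfl

theorem uk_smul (g : G) (k : K.und.Pt) : uk a (K.smul g k) =
    (TV a (gl K)).act (em (act g a)) (fn (rk a K g) (uk a k)) :=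
  (congrArg (ue a (K := gl K)) (P241.Geo.app_act K g k).symm).trans (ue_eqv a (K := gl K) g k)

theorem eqv_iff (φ : TV a (gl K) ⟶ q0.obj X.V) (g : G) :
    rk a K g ≫ φ = φ ≫ q0.map (X.ρ g) ↔ ∀ k, dn0 (fn φ (uk a (K.smul g k))) =
      (o0.obj X.V).ac (act g a) ((o0.map (X.ρ g)).app _ (dn0 (fn φ (uk a k)))) := by
  constructor
  · intro h k
    rw [uk_smul, fn_act, dn0_act, ← fn_comp, h, fn_comp, dn0_fn]
  · intro h
    refine uk_ext fun k => ?_
    have h2 := h k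
    rw [uk_smul, fn_act, ← dn0_fn, ← dn0_act] at h2
    have h3 := congrArg ((q0.obj X.V).act (em (act g⁻¹ a))) (dn0_inj h2)
    have h4 : em (act g a) ≫ em (act g⁻¹ a) = 𝟙 _ := rho_inv (AG G a) g
    rwa [← act_comp, ← act_comp, h4, act_id, act_id] at h3

theorem av_id : av (𝟙 ((TF (MG G) 0).obj (gl K))) = (RM.adj P251CV.R).unit.app (TV 0 (gl K)) :=
  (congrArg (fun z => (RM.adj P251CV.R).unit.app (TV 0 (gl K)) ≫ q0.map z)
    (Category.id_comp (𝟙 (r0.obj (TV 0 (gl K)))))).trans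
      ((congrArg (_ ≫ ·) (q0.map_id _)).trans (Category.comp_id _))

theorem free_aux {Z : M0} (φ : r0.obj (TV 0 (gl K)) ⟶ Z) (k : K.und.Pt) :
    (o0.map φ).app 0 ((elM (𝟙 ((TF (MG G) 0).obj (gl K)))).fn k) =
      dn0 (fn ((RM.adj P251CV.R).homEquiv _ _ φ) (uk 0 k)) := by
  rw [Adjunction.homEquiv_unit, fn_comp, dn0_fn, ← av_id]
  rfl

theorem free_el (K : GSpace G) :
    IsFree (X := o0.obj (r0.obj (TV 0 (gl K)))) (elM (𝟙 ((TF (MG G) 0).obj (gl K)))) := by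
  intro Y v
  obtain ⟨φ, hφ⟩ := uk_ex (a := 0) (Z := P251CX.o Y) v
  obtain ⟨φ, rfl⟩ := ((RM.adj P251CV.R).homEquiv _ _).surjective φ
  refine ⟨o0.map φ, fun k => (free_aux φ k).trans (hφ k), fun ψ hψ => ?_⟩
  obtain ⟨ψ, rfl⟩ := o0.map_surjective (X := r0.obj (TV 0 (gl K))) (Y := P251CX.o Y) ψ
  exact congrArg o0.map (((RM.adj P251CV.R).homEquiv _ _).injective (uk_ext fun k => dn0_inj
    ((free_aux ψ k).symm.trans ((hψ k).trans (hφ k).symm))))

theorem av_zero : av (0 : (TF (MG G) a).obj (gl K) ⟶ X) = 0 := by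
  rw [av, ← comp_zero (f := 𝟙 _), ad_post]
  exact (congrArg (av (𝟙 _) ≫ ·) (RM.q_map_zero P251CV.R _ X.V)).trans comp_zero

theorem elM_stab (f : (TF (MG G) a).obj (gl K) ⟶ X) (v : G → ℝ)
    (h : Emb (Nat.card G * a) (Nat.card G * (a + 1))) (hh : ∀ s, ap h (cd s) = cd (vecCons v s))
    (x : K.carrier) : (elM (stb (MG G) a K ≫ f)).fn (.some (v, x)) =
      (o0.obj X.V).ac h ((elM f).fn (.some x)) := by
  have h1 : av (stb (MG G) a K ≫ f) = (stb (CG G) a K).hom ≫ av f := congrArg Action.Hom.hom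
    (ad_pre _ _ (P241GM.tfIso_stb (adG G) P241GM.hjA P241GM.hfinA a K) f)
  rw [elM_fn, elM_fn, h1, ← dn0_act, ← fn_act]
  exact congrArg (fun z => dn0 (fn (av f) z)) (fn_stb a K v x h hh)

theorem elM_pre (p : gl K' ⟶ gl K) (f : (TF (MG G) a).obj (gl K) ⟶ X) (x : K'.und.Pt) :
    (elM ((TF (MG G) a).map p ≫ f)).fn x = (elM f).fn (LC.app p.hom x) := by
  have h1 : av ((TF (MG G) a).map p ≫ f) = ((TF (CG G) a).map p).hom ≫ av f :=
    congrArg Action.Hom.hom (ad_pre _ _ (P241GM.tfIso_nat a p) f)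
  rw [elM_fn, h1]
  exact congrArg (fun z => dn0 (fn (av f) z)) (ue_nat a p x)

theorem elM_surj (u : Pm K.und ((oA G).obj X).V (Nat.card G * a))
    (hu : EqvG K ((oA G).obj X) a u) : ∃ f : (TF (MG G) a).obj (gl K) ⟶ X, elM f = u := by
  obtain ⟨φ, hφ⟩ := uk_ex (Z := X.V) u
  refine ⟨ad.symm ⟨φ, fun g => (eqv_iff φ g).2 fun k => ?_⟩, pm_ext fun k => ?_⟩
  · rw [hφ, hφ]
    exact hu g _ (isAct_act g a) k
  · rw [elM_fn, av, Equiv.apply_symm_apply]
    exact hφ k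

/-- **The dictionary.** -/
def dict (hS : Sh G) : Dict (oA G) where
  el := elM
  eqv f g _ hh x := IsAct.eq hh ▸ (eqv_iff (av f) g).1 ((ad f).comm g) x
  inj _ _ h := ad.injective (Action.hom_ext _ _ (uk_ext fun x => dn0_inj (h x)))
  surj := elM_surj
  post f φ _ := (congrArg (fun z : _ ⟶ (qA G).obj _ => dn0 (fn z.hom _)) (ad_post f φ)).trans
    (dn0_fn φ.hom _)
  pre := elM_pre
  zero x := congrArg (fun z => dn0 (fn z (uk _ x))) av_zero
  stab := elM_stab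
  free := free_el
  sh := hS

/-- **The model.** -/
theorem model_of (hS : Sh G) : Model G :=
  ⟨MG G, _, _, _, _, _, _, ginM G, oA G, inferInstance, inferInstance, oA_surj G, ⟨dict hS⟩⟩

end Vale.Agent.P241GK
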