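import Vale.Agent.P241GK.Act
import Vale.Agent.P251CA.Base

/-!
# P241G: the desuspension by a sphere `c` in continuous functors
-/

open CategoryTheory MonoidalCategory Topology OnePoint

noncomputable section

namespace Vale.Agent.P241GK

open P251.H P251CA P251CA.CF
open P251.G (LC)
open P251.G.LC (smash smash_infty_left smash_infty_right II)

variable {a b c c' : Sp0}

/-- the action of a morphism `f : c ⟶ a` on a point of `jC.obj c.s` -/
def ractV (f : c ⟶ a) (y : OnePoint ((jC.obj c.s).obj b)) : OnePoint (sphere.obj (a ⊗ b)) :=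
  sp (LC.app (f ▷ b).hom (y : OnePoint (c ⊗ b).s))

theorem ractV_jm (f : c ⟶ a) (r : OnePoint c.s) (t : OnePoint b.s) :
    ractV f (jm r t) = sp (a := a ⊗ b) (smash (LC.app f.hom r) t) :=
  LC.app_whiskerRight_smash f.hom b.s r t

variable (c) in
/-- the bilinear map `(f, (r, t)) ↦ (f r, t)` -/
def lamBilV : Bil (rep c) (jC.obj c.s) sphere where
  toFun x y := ractV (unpr x) y
  infty_left {a b} y := by
    rw [unpr_infty, ractV, Sp0.zero_whiskerRight]
    rfl
  infty_right {a b} x := LC.app_infty ((unpr x).hom ▷ b.s)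
  nat {a b a' b'} u v x y := by
    obtain ⟨r, t, rfl⟩ := jm_surjective y
    rw [jC_act, unpr_rep_act, ractV_jm, ractV_jm]
    exact (congrArg sp (LC.app_tensorHom_smash u.hom v.hom (LC.app (unpr x).hom r) t)).symm
  plot {a b} K x y hx hy := by
    have h1 := Sp0.plot_whiskerRight (unpr_plot hx) b
    exact h1.comp (continuous_id.prodMk (jC_plot_iff.mp hy))

variable (c) in
/-- The structure map `rep c ⊗ S^c ⟶ 𝟙`. -/
def lamV : rep c ⊗ jC.obj c.s ⟶ 𝟙_ CF := tensorDesc (lamBilV c)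

theorem lamV_tm (f : c ⟶ a) (r : OnePoint c.s) (t : OnePoint b.s) :
    fn (lamV c) (tm (pr f) (jm r t)) = sp (a := a ⊗ b) (smash (LC.app f.hom r) t) := by
  rw [lamV, tensorDesc_tm]
  change ractV (unpr (pr f)) (jm r t) = _
  rw [unpr_pr, ractV_jm]

theorem lamV_nat (w : c ⟶ c') (v : c' ⟶ c) (h : w ≫ v = 𝟙 c) :
    (repMap v ⊗ₘ jC.map w.hom) ≫ lamV c' = lamV c := by
  apply tensor_ext
  intro a b x y
  obtain ⟨f, rfl⟩ := pr_surjective x
  obtain ⟨r, t, rfl⟩ := jm_surjective y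
  rw [fn_comp, tensorHom_tm, fn_repMap_pr, fn_jC_map, lamV_tm, lamV_tm, ← LC.app_comp,
    ← Sp0.comp_hom, reassoc_of% h]

section shift

variable (c) (K : LC)

/-- the rearrangement `(c ⊗ K) ⊗ b ≅ K ⊗ (c ⊗ b)` -/
def shLCV (b : Sp0) : (c.s ⊗ K) ⊗ b.s ≅ K ⊗ (c ⊗ b).s :=
  whiskerRightIso (β_ c.s K) b.s ≪≫ α_ K c.s b.s

theorem app_shLCV_hom (r : OnePoint c.s) (k : OnePoint K) (t : OnePoint b.s) :
    LC.app (shLCV c K b).hom (smash (smash r k) t) = smash k (smash r t) := by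
  refine (LC.app_comp _ _ _).trans ?_
  refine (congrArg (LC.app (α_ K c.s b.s).hom) (LC.app_whiskerRight_smash _ _ _ _)).trans ?_
  refine (congrArg (fun z => LC.app (α_ K c.s b.s).hom (smash z t))
    (LC.app_braiding_smash c.s K r k)).trans ?_
  exact LC.app_associator_smash K c.s b.s k r t

/-- `(F (c ⊗ K)).obj b ≅ (F K).obj (c ⊗ b)` -/
def shPQV (b : Sp0) : (jC.obj (c.s ⊗ K)).obj b ≅ ((sh c).obj (jC.obj K)).obj b :=
  PQ.μLC (c.s ⊗ K) b.s ≪≫ PQ.LCPQ.mapIso (shLCV c K b) ≪≫ (PQ.μLC K (c ⊗ b).s).symm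

theorem app_shPQV_hom (r : OnePoint c.s) (k : OnePoint K) (t : OnePoint b.s) :
    PQ.app (shPQV c K b).hom (jm (K := c.s ⊗ K) (smash r k) t) =
      jm (K := K) (a := c ⊗ b) k (smash r t) :=
  app_shLCV_hom c K r k t

/-- `F (c ⊗ K) ≅ sh c (F K)` -/
def shIsoV : jC.obj (c.s ⊗ K) ≅ (sh c).obj (jC.obj K) :=
  isoMk (shPQV c K) (fun {b d} w => by
    apply PQ.hom_ext'
    intro z
    obtain ⟨rk, t, rfl⟩ := jm_surjective z
    obtain ⟨⟨r, k⟩, rfl⟩ := Sp0.smash_surjective rk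
    refine (congrArg (PQ.app (shPQV c K d).hom) (jC_act w (smash r k) t)).trans ?_
    refine (app_shPQV_hom c K r k _).trans ?_
    refine Eq.trans ?_ (congrArg ((jC.obj K).act (c ◁ w)) (app_shPQV_hom c K r k t).symm)
    refine Eq.trans ?_ (jC_act (c ◁ w) k (smash r t)).symm
    exact congrArg (jm k) (LC.app_whiskerLeft_smash c.s w.hom r t).symm)

theorem fn_shIsoV_hom (r : OnePoint c.s) (k : OnePoint K) (t : OnePoint b.s) :
    fn (shIsoV c K).hom (jm (K := c.s ⊗ K) (smash r k) t) =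
      jm (K := K) (a := c ⊗ b) k (smash r t) :=
  app_shLCV_hom c K r k t

/-- evaluation on generators -/
def evalBilV : Bil (rep c) (jC.obj (c.s ⊗ K)) (jC.obj K) where
  toFun {a b} x z := (jC.obj K).act (unpr x ▷ b) (unsh (fn (shIsoV c K).hom z))
  infty_left {a b} y := by
    rw [unpr_infty, Sp0.zero_whiskerRight, act_zero]
  infty_right {a b} x := by
    rw [fn_infty, unsh_infty, act_infty]
  nat {a b a' b'} u v x y := by
    rw [unpr_rep_act, fn_act, unsh_act, ← act_comp, ← act_comp]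
    congr 1
    rw [comp_whiskerRight, tensorHom_def', whisker_exchange_assoc]
  plot {a b} T x y hx hy := act_plot _ (Sp0.plot_whiskerRight (unpr_plot hx) b)
    (unsh_plot (fn_plot (shIsoV c K).hom hy))

/-- evaluation `rep c ⊗ F (c ⊗ K) ⟶ F K` -/
def evalV : rep c ⊗ jC.obj (c.s ⊗ K) ⟶ jC.obj K := tensorDesc (evalBilV c K)

theorem evalV_tm (f : c ⟶ a) (z : OnePoint ((jC.obj (c.s ⊗ K)).obj b)) :
    fn (evalV c K) (tm (pr f) z) = (jC.obj K).act (f ▷ b) (unsh (fn (shIsoV c K).hom z)) := by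
  rw [evalV, tensorDesc_tm]
  change (jC.obj K).act (unpr (pr f) ▷ b) (unsh (fn (shIsoV c K).hom z)) = _
  rw [unpr_pr]

theorem evalV_tm_jm (f : c ⟶ a) (r : OnePoint c.s) (k : OnePoint K) (t : OnePoint b.s) :
    fn (evalV c K) (tm (pr f) (jm (K := c.s ⊗ K) (smash r k) t)) =
      jm (a := a ⊗ b) k (smash (LC.app f.hom r) t) := by
  rw [evalV_tm, fn_shIsoV_hom]
  refine (jC_act (f ▷ b) k (smash r t)).trans ?_
  exact congrArg (jm k) (LC.app_whiskerRight_smash f.hom b.s r t)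

theorem evalV_bij (X : CF) :
    Function.Bijective (fun x : X ⟶ jC.obj (c.s ⊗ K) => rep c ◁ x ≫ evalV c K) := by
  constructor
  · intro x x' h
    have h' : rep c ◁ x ≫ evalV c K = rep c ◁ x' ≫ evalV c K := h
    rw [← cancel_mono (shIsoV c K).hom]
    apply hom_ext
    intro b ξ
    have := congrArg (fun g => fn g (tm (pr (𝟙 c)) ξ)) h'
    simp only [fn_comp, whiskerLeft_tm, evalV_tm, id_whiskerRight, act_id] at this
    exact this
  · intro g
    refine ⟨repCurry g ≫ (shIsoV c K).inv, ?_⟩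
    apply tensor_ext
    intro a b x ξ
    obtain ⟨f, rfl⟩ := pr_surjective x
    rw [fn_comp, whiskerLeft_tm, evalV_tm, ← fn_comp, Category.assoc, Iso.inv_hom_id,
      Category.comp_id]
    change (jC.obj K).act (f ▷ b) (fn g (tm (pr (𝟙 c)) ξ)) = _
    rw [← fn_act, act_tm_left, rep_act, Category.id_comp]

theorem ev0_eq : ev0 jC (rep c) c.s (lamV c) K = evalV c K := by
  apply FF_ext_right
  intro z a x
  obtain ⟨f, rfl⟩ := pr_surjective x
  obtain ⟨⟨r, k⟩, rfl⟩ := Sp0.smash_surjective (X := c.s) (Y := K) z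
  refine Eq.trans ?_ (evalV_tm_jm c K f r k pu).symm
  simp only [ev0, fn_comp]
  rw [whiskerLeft_tm]
  refine (congrArg (fun z => fn (λ_ (jC.obj K)).hom (fn (lamV c ▷ jC.obj K)
    (fn (α_ (rep c) (jC.obj c.s) (jC.obj K)).inv (tm (pr f) z)))) (fn_δ_jC r k)).trans ?_
  rw [← act_tm_right, fn_act, fn_act, fn_act, associator_inv_tm, fn_act, fn_act,
    whiskerRight_tm, lamV_tm, leftUnitor_tm, jC_act, jC_act, jC_act]
  change jm k (LC.app (a ◁ (λ_ (𝟙_ Sp0)).hom).hom (LC.app (α_ a (𝟙_ Sp0) (𝟙_ Sp0)).hom.hom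
    (LC.app ((λ_ (𝟙_ Sp0)).inv ≫ spt (sp (Sp0.smp (LC.app f.hom r) pu)) ▷ 𝟙_ Sp0).hom pu))) = _
  rw [Sp0.comp_hom, LC.app_comp, Sp0.app_leftUnitor_inv, Sp0.app_whiskerRight_smp, app_spt_sp,
    Sp0.app_associator_smp, Sp0.app_whiskerLeft_smp, Sp0.app_leftUnitor_smp]
  rfl

theorem ev0_bij (X : CF) : Function.Bijective
    fun x : X ⟶ jC.obj (c.s ⊗ K) => rep c ◁ x ≫ ev0 jC (rep c) c.s (lamV c) K := by
  simp only [ev0_eq]
  exact evalV_bij c K X

theorem fin_tf0 (n : ℕ) : FinFactor (tf0 (rep c) (jC.obj K) n) := by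
  refine GenByPlot.finFactor ?_
  induction n with
  | zero => exact genByPlot_F K
  | succ n ih => exact (genByPlot_rep c).tensor ih

end shift

end Vale.Agent.P241GK
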