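import Vale.Agent.P241GK.Lam
import Vale.Agent.P251CA.Crd

/-!
# P241G: the rotation homotopy for a representation
-/

open CategoryTheory MonoidalCategory Topology OnePoint
open Functor.LaxMonoidal Functor.OplaxMonoidal

noncomputable section

namespace Vale.Agent.P241GK

open P251.H P251CA P251CA.CF P241GA
open P251.G (LC)
open P251.G.LC (smash smash_infty_left smash_infty_right II incl app_incl ofHomeo)
open Sp0 (smp euc)

universe v u u'

/-- The rotation homotopy from a family `Γ`. -/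
theorem rot_ofV {N : Type u'} [Category.{v} N] [MonoidalCategory N] [SymmetricCategory N]
    {M : Type u} [Category.{v} M] [MonoidalCategory M] [SymmetricCategory M]
    (t : LC ⥤ N) [t.Braided] (j : N ⥤ M) [j.Braided] (S : N) (L : M) (lam : L ⊗ j.obj S ⟶ 𝟙_ M)
    (R : (S ⊗ S) ⊗ t.obj II ⟶ (S ⊗ t.obj II) ⊗ S) (fl : S ⟶ S) (hfl : fl ≫ fl = 𝟙 S)
    (hR0 : jincl t 0 (S ⊗ S) ≫ R = jincl t 0 S ▷ S)
    (hR1 : jincl t 1 (S ⊗ S) ≫ R = (β_ S S).hom ≫ (fl ≫ jincl t 1 S) ▷ S)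
    (Γ : (L ⊗ L) ⊗ j.obj (S ⊗ t.obj II) ⟶ L)
    (h0 : (L ⊗ L) ◁ j.map (jincl t 0 S) ≫ Γ = contr₁ L lam)
    (h1 : (L ⊗ L) ◁ j.map (jincl t 1 S) ≫ Γ = (L ⊗ L) ◁ j.map fl ≫ contr₂ L lam) :
    JHomotopic (t ⋙ j) (lam ▷ (L ⊗ j.obj S) ≫ (λ_ (L ⊗ j.obj S)).hom)
      ((L ⊗ j.obj S) ◁ lam ≫ (ρ_ (L ⊗ j.obj S)).hom) := by
  have key : ∀ s : unitInterval, jincl (t ⋙ j) s ((L ⊗ j.obj S) ⊗ (L ⊗ j.obj S)) ≫
      (rearr L ▷ (t ⋙ j).obj II ≫ (α_ (L ⊗ L) (j.obj S ⊗ j.obj S) ((t ⋙ j).obj II)).hom ≫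
        (L ⊗ L) ◁ (μ j S S ▷ (t ⋙ j).obj II ≫ μ j (S ⊗ S) (t.obj II) ≫ j.map R ≫
          δ j (S ⊗ t.obj II) S) ≫ (α_ (L ⊗ L) (j.obj (S ⊗ t.obj II)) (j.obj S)).inv ≫
            Γ ▷ j.obj S) =
      rearr L ≫ (L ⊗ L) ◁ (μ j S S ≫ j.map (jincl t s (S ⊗ S) ≫ R) ≫
        δ j (S ⊗ t.obj II) S) ≫ (α_ (L ⊗ L) (j.obj (S ⊗ t.obj II)) (j.obj S)).inv ≫
          Γ ▷ j.obj S := by
    intro s
    rw [← Category.assoc, jincl_naturality', Category.assoc, jincl_tensor'_assoc,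
      ← MonoidalCategory.whiskerLeft_comp_assoc]
    congr 3
    rw [← Category.assoc, jincl_naturality', Category.assoc, Functor.map_comp,
      ← P251CR.jincl_comp j t s (S ⊗ S)]
    simp only [Category.assoc]
  have hδ : ∀ f : S ⟶ S ⊗ t.obj II, μ j S S ≫ j.map (f ▷ S) ≫ δ j (S ⊗ t.obj II) S =
      j.map f ▷ j.obj S := by
    intro f
    rw [← μ_natural_left_assoc, Functor.Monoidal.μ_δ, Category.comp_id]
  refine ⟨_, (key 0).trans ?_, (key 1).trans ?_⟩
  · rw [hR0, hδ, associator_inv_naturality_middle_assoc, ← comp_whiskerRight, h0]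
    exact rearr_contr₁ L lam
  · have h2 : (L ⊗ L) ◁ j.map (fl ≫ jincl t 1 S) ≫ Γ = contr₂ L lam := by
      rw [Functor.map_comp, MonoidalCategory.whiskerLeft_comp, Category.assoc, h1,
        ← MonoidalCategory.whiskerLeft_comp_assoc, ← Functor.map_comp, hfl,
        CategoryTheory.Functor.map_id, MonoidalCategory.whiskerLeft_id, Category.id_comp]
    have hβ : μ j S S ≫ j.map (jincl t 1 (S ⊗ S) ≫ R) ≫ δ j (S ⊗ t.obj II) S =
        (β_ (j.obj S) (j.obj S)).hom ≫ j.map (fl ≫ jincl t 1 S) ▷ j.obj S := by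
      rw [hR1, Functor.map_comp, Category.assoc, Functor.LaxBraided.braided_assoc, hδ]
    rw [hβ, MonoidalCategory.whiskerLeft_comp_assoc, associator_inv_naturality_middle_assoc,
      ← comp_whiskerRight, h2]
    exact rearr_contr₂ L lam

variable (n : ℕ)

/-- the rotation of `ℝ^n × ℝ^n` -/
def rotH : ((Fin n → ℝ) × (Fin n → ℝ)) × unitInterval ≃ₜ
    ((Fin n → ℝ) × unitInterval) × (Fin n → ℝ) where
  toFun p := ((rc p.2 • p.1.1 - rs p.2 • p.1.2, p.2), rs p.2 • p.1.1 + rc p.2 • p.1.2)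
  invFun q := ((rc q.1.2 • q.1.1 + rs q.1.2 • q.2, rc q.1.2 • q.2 - rs q.1.2 • q.1.1), q.1.2)
  left_inv := by
    rintro ⟨⟨r, t⟩, θ⟩
    have h := rc_sq_add_rs_sq θ
    refine Prod.ext (Prod.ext (funext fun i => ?_) (funext fun i => ?_)) rfl
    · change rc θ * (rc θ * r i - rs θ * t i) + rs θ * (rs θ * r i + rc θ * t i) = r i
      linear_combination r i * h
    · change rc θ * (rs θ * r i + rc θ * t i) - rs θ * (rc θ * r i - rs θ * t i) = t i
      linear_combination t i * h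
  right_inv := by
    rintro ⟨⟨w, θ⟩, u⟩
    have h := rc_sq_add_rs_sq θ
    refine Prod.ext (Prod.ext (funext fun i => ?_) rfl) (funext fun i => ?_)
    · change rc θ * (rc θ * w i + rs θ * u i) - rs θ * (rc θ * u i - rs θ * w i) = w i
      linear_combination w i * h
    · change rs θ * (rc θ * w i + rs θ * u i) + rc θ * (rc θ * u i - rs θ * w i) = u i
      linear_combination u i * h
  continuous_toFun := by
    have h1 := continuous_rc
    have h2 := continuous_rs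
    fun_prop
  continuous_invFun := by
    have h1 := continuous_rc
    have h2 := continuous_rs
    fun_prop

/-- the rotation in `LC` -/
def rotI : ((euc n).s ⊗ (euc n).s) ⊗ II ≅ ((euc n).s ⊗ II) ⊗ (euc n).s :=
  ofHomeo (X := ((euc n).s ⊗ (euc n).s) ⊗ II) (Y := ((euc n).s ⊗ II) ⊗ (euc n).s) (rotH n)

/-- the reflection -/
def flV : (euc n).s ⟶ (euc n).s :=
  (ofHomeo (X := (euc n).s) (Y := (euc n).s) (Homeomorph.neg (Fin n → ℝ))).hom

/-- the family of embeddings -/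
def famV : ((euc n).s ⊗ II) ⊗ (euc n).s ⟶ (euc n).s ⊗ (euc n).s :=
  (rotI n).inv ≫ ((euc n).s ⊗ (euc n).s) ◁ prII ≫ (ρ_ _).hom

variable {n}

/-- a vector as a point of the sphere -/
abbrev vp (x : Fin n → ℝ) : OnePoint (euc n).s := OnePoint.some (X := Fin n → ℝ) x

theorem app_famV (w u : Fin n → ℝ) (θ : unitInterval) :
    LC.app (famV n) (smash (smash (vp w) (θ : OnePoint unitInterval)) (vp u)) =
      smash (vp (rc θ • w + rs θ • u)) (vp (rc θ • u - rs θ • w)) := rfl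

theorem app_famV_zero (w u : Fin n → ℝ) :
    LC.app (famV n) (smash (smash (vp w) ((0 : unitInterval) : OnePoint unitInterval)) (vp u)) =
      smash (vp w) (vp u) := by
  rw [app_famV, rc_zero, rs_zero, one_smul, zero_smul, one_smul, zero_smul, add_zero, sub_zero]

theorem app_famV_one (w u : Fin n → ℝ) :
    LC.app (famV n) (smash (smash (vp w) ((1 : unitInterval) : OnePoint unitInterval)) (vp u)) =
      smash (vp u) (vp (-w)) := by
  rw [app_famV, rc_one, rs_one, one_smul, zero_smul, one_smul, zero_smul, zero_add, zero_sub]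

/-- the embedding given by a point of `ℝ^n × [0,1]` -/
def rotM (z : OnePoint ((euc n).s ⊗ II : LC)) : euc n ⟶ euc n ⊗ euc n :=
  ⟨secLC (euc n).s z ≫ famV n, by
    induction z using OnePoint.rec with
    | infty => exact .inl (LC.hom_ext fun u => LC.app_infty (famV n))
    | coe z =>
      obtain ⟨w, θ⟩ : (Fin n → ℝ) × unitInterval := z
      refine .inr ⟨fun u : Fin n → ℝ =>
        ((rc θ • w + rs θ • u : Fin n → ℝ), (rc θ • u - rs θ • w : Fin n → ℝ)),
        w ⬝ᵥ w, fun u => app_famV w u θ, fun (u : Fin n → ℝ) (u' : Fin n → ℝ) => ?_⟩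
      change (rc θ • w + rs θ • u) ⬝ᵥ (rc θ • w + rs θ • u') +
        (rc θ • u - rs θ • w) ⬝ᵥ (rc θ • u' - rs θ • w) = u ⬝ᵥ u' + w ⬝ᵥ w
      simp only [add_dotProduct, dotProduct_add, sub_dotProduct, dotProduct_sub, smul_dotProduct,
        dotProduct_smul, smul_eq_mul]
      linear_combination (u ⬝ᵥ u' + w ⬝ᵥ w) * rc_sq_add_rs_sq θ⟩

theorem app_rotM (z : OnePoint ((euc n).s ⊗ II : LC)) (u : OnePoint (euc n).s) :
    LC.app (rotM z).hom u = LC.app (famV n) (smash z u) := rfl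

theorem rotM_infty : rotM (n := n) ∞ = 0 :=
  Sp0.app_ext fun _ => LC.app_infty (famV n)

variable (n) in
/-- the family of embeddings as a morphism of `PQ` -/
def rotQ : PQ.LCPQ.obj ((euc n).s ⊗ II) ⟶ (rep (euc n)).obj (euc n ⊗ euc n) :=
  ⟨fun z => pr (rotM z), by
    change pr (rotM ∞) = ∞
    rw [rotM_infty, pr_zero], fun _ _ hz => pr_plot ((LC.continuous_app (famV n)).comp
      (LC.continuous_smash.comp ((hz.comp continuous_fst).prodMk continuous_snd)))⟩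

variable (n) in
/-- The family of the rotation homotopy. -/
def rotV : (rep (euc n) ⊗ rep (euc n)) ⊗ jC.obj ((euc n).s ⊗ II) ⟶ rep (euc n) := famG (rotQ n)

theorem fn_rotV (z : OnePoint ((euc n).s ⊗ II : LC)) :
    fn (rotV n) (tm (tm (pr (𝟙 (euc n))) (pr (𝟙 (euc n)))) (jm (K := (euc n).s ⊗ II) z pu)) =
      pr (rotM z ≫ (ρ_ (euc n ⊗ euc n)).inv) :=
  (fn_famG (rotQ n) z).trans (rep_act _ _)

theorem fn_contrV₁ {c : Sp0} (w : OnePoint c.s) :
    fn (contr₁ (rep c) (lamV c)) (tm (tm (pr (𝟙 c)) (pr (𝟙 c))) (jm w pu)) =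
      pr ((λ_ c).inv ≫ Sp0.pt (a := c ⊗ 𝟙_ Sp0) (smp w pu) ▷ c ≫
        (α_ _ _ _).hom ≫ c ◁ (β_ (𝟙_ Sp0) c).hom ≫ (α_ _ _ _).inv) := by
  simp only [contr₁, fn_comp]
  rw [associator_tm, fn_act, fn_act, fn_act, fn_act, whiskerLeft_tm, braiding_tm, ← act_tm_right,
    fn_act, fn_act, fn_act, associator_inv_tm, fn_act, fn_act, whiskerRight_tm, lamV_tm,
    leftUnitor_tm]
  rw [rep_act, rep_act, rep_act, rep_act, Category.id_comp]
  rfl

theorem fn_contrV₂ {c : Sp0} (w : OnePoint c.s) :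
    fn (contr₂ (rep c) (lamV c)) (tm (tm (pr (𝟙 c)) (pr (𝟙 c))) (jm w pu)) =
      pr ((ρ_ c).inv ≫ c ◁ Sp0.pt (a := c ⊗ 𝟙_ Sp0) (smp w pu) ≫ (α_ _ _ _).inv) := by
  simp only [contr₂, fn_comp]
  rw [associator_tm, fn_act, fn_act, whiskerLeft_tm, lamV_tm, rightUnitor_tm, rep_act, rep_act,
    Category.id_comp]
  rfl

theorem fn_rotV_map {K : LC} (p : K ⟶ (euc n).s ⊗ II) (w : OnePoint K) :
    fn ((rep (euc n) ⊗ rep (euc n)) ◁ jC.map p ≫ rotV n)
      (tm (tm (pr (𝟙 (euc n))) (pr (𝟙 (euc n)))) (jm w pu)) =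
      pr (rotM (LC.app p w) ≫ (ρ_ (euc n ⊗ euc n)).inv) := by
  rw [fn_comp, whiskerLeft_tm, fn_jC_map, fn_rotV]

theorem rotV_zero : (rep (euc n) ⊗ rep (euc n)) ◁ jC.map (incl 0 (euc n).s) ≫ rotV n =
    contr₁ (rep (euc n)) (lamV (euc n)) := by
  apply RRF_ext
  intro w
  refine (fn_rotV_map _ w).trans (Eq.trans (congrArg pr ?_) (fn_contrV₁ w).symm)
  refine Sp0.app_ext fun u => Eq.trans ?_ (app_end₁ (a := euc n) w u)
  refine Eq.trans (congrArg (LC.app (ρ_ (euc n ⊗ euc n)).inv.hom) ?_) (Sp0.app_rightUnitor_inv _)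
  induction w using OnePoint.rec with
  | infty => exact LC.app_infty (famV n)
  | coe w => exact app_famV_zero w u

theorem rotV_one : (rep (euc n) ⊗ rep (euc n)) ◁ jC.map (incl 1 (euc n).s) ≫ rotV n =
    (rep (euc n) ⊗ rep (euc n)) ◁ jC.map (flV n) ≫ contr₂ (rep (euc n)) (lamV (euc n)) := by
  apply RRF_ext
  intro w
  refine (fn_rotV_map _ w).trans (Eq.trans (congrArg pr ?_) ((congrArg (fn _)
    ((whiskerLeft_tm _ _ _ _).trans (congrArg _ (fn_jC_map (flV n) w pu)))).trans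
      (fn_contrV₂ (LC.app (flV n) w))).symm)
  refine Sp0.app_ext fun u => Eq.trans ?_ (app_end₂ (a := euc n) (LC.app (flV n) w) u)
  refine Eq.trans (congrArg (LC.app (ρ_ (euc n ⊗ euc n)).inv.hom) ?_) (Sp0.app_rightUnitor_inv _)
  induction w using OnePoint.rec with
  | infty => exact LC.app_infty (famV n)
  | coe w => exact app_famV_one w u

/-- `w` is a linear map -/
def IsLin (w : euc n ⟶ euc n) : Prop :=
  ∃ T : (Fin n → ℝ) →ₗ[ℝ] (Fin n → ℝ), ∀ x, LC.app w.hom (vp x) = vp (T x)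

theorem rotV_nat {w v : euc n ⟶ euc n} (hv : IsLin v) (hw : IsLin w) (h : w ≫ v = 𝟙 _) :
    ((repMap v ⊗ₘ repMap v) ⊗ₘ jC.map (w.hom ⊗ₘ 𝟙 II)) ≫ rotV n = rotV n ≫ repMap v := by
  obtain ⟨T, hT⟩ := hv
  obtain ⟨T', hT'⟩ := hw
  have h1 : ∀ x, T (T' x) = x := fun x => OnePoint.coe_eq_coe.mp
    ((hT _).symm.trans ((congrArg (LC.app v.hom) (hT' x).symm).trans
      (congrArg (fun q : euc n ⟶ euc n => LC.app q.hom (vp x)) h)))
  apply RRF_ext
  intro z
  have e1 := fn_jC_map (w.hom ⊗ₘ 𝟙 II) z (a := 𝟙_ Sp0) pu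
  have e2 : ∀ y : OnePoint ((euc n).s ⊗ II : LC), tm (tm (pr v) (pr v)) (jm y (a := 𝟙_ Sp0) pu) =
      ((rep (euc n) ⊗ rep (euc n)) ⊗ jC.obj ((euc n).s ⊗ II)).act ((v ⊗ₘ v) ⊗ₘ 𝟙 _)
        (tm (tm (pr (𝟙 _)) (pr (𝟙 _))) (jm y pu)) := fun y => by
    rw [act_tm, act_tm, rep_act, Category.id_comp, act_id]
  refine Eq.trans ?_ ((congrArg (fn (repMap v)) (fn_rotV z)).trans (fn_repMap_pr _ _)).symm
  refine (congrArg (fn (rotV n)) (tensorHom_tm _ _ _ _)).trans ?_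
  rw [tensorHom_tm, fn_repMap_pr, Category.comp_id]
  refine (congrArg (fun y => fn (rotV n) (tm (tm (pr v) (pr v)) y)) e1).trans ?_
  rw [e2, fn_act, fn_rotV, rep_act, tensorHom_id (v ⊗ₘ v), Category.assoc,
    ← rightUnitor_inv_naturality,
    ← Category.assoc, ← Category.assoc]
  refine congrArg (fun q => pr (q ≫ (ρ_ (euc n ⊗ euc n)).inv)) (Sp0.app_ext fun u => ?_)
  induction z using OnePoint.rec with
  | infty => exact (LC.app_infty (v ⊗ₘ v).hom).trans (LC.app_infty (famV n)).symm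
  | coe z =>
    obtain ⟨k, θ⟩ : (Fin n → ℝ) × unitInterval := z
    have e3 : LC.app (w.hom ⊗ₘ 𝟙 II) (smash (vp k) (θ : OnePoint unitInterval)) =
        smash (vp (T' k)) (θ : OnePoint unitInterval) :=
      (LC.app_tensorHom_smash _ _ _ _).trans (congrArg (smash · _) (hT' k))
    have e4 : ∀ u : Fin n → ℝ, LC.app (v ⊗ₘ v).hom (smash (vp (rc θ • T' k + rs θ • u))
        (vp (rc θ • u - rs θ • T' k))) =
        smash (vp (rc θ • k + rs θ • T u)) (vp (rc θ • T u - rs θ • k)) := fun u => by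
      refine (LC.app_tensorHom_smash _ _ _ _).trans ?_
      rw [hT, hT, map_add, map_sub, map_smul, map_smul, map_smul, map_smul, h1]
    refine (congrArg (fun y => LC.app (v ⊗ₘ v).hom (LC.app (famV n) (smash y (vp u)))) e3).trans ?_
    exact (e4 u).trans (congrArg (fun y => LC.app (famV n)
      (smash (smash (vp k) (θ : OnePoint unitInterval)) y)) (hT u)).symm

variable {G : Type} [Group G] (A : Action Sp0 G)

/-- the sphere of a representation -/
abbrev SA : LG G := (Sp0.toLC.mapAction G).obj A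

theorem rho_inv (g : G) : A.ρ g ≫ A.ρ g⁻¹ = 𝟙 A.V :=
  (A.ρ.map_mul g⁻¹ g).symm.trans ((congrArg A.ρ (inv_mul_cancel g)).trans A.ρ.map_one)

/-- the desuspension by a representation -/
def FA : Action CF G where
  V := rep A.V
  ρ :=
    { toFun := fun g => repMap (A.ρ g⁻¹)
      map_one' := (congrArg repMap ((congrArg A.ρ inv_one).trans A.ρ.map_one)).trans (repMap_id _)
      map_mul' := fun g h => (congrArg repMap ((congrArg A.ρ (mul_inv_rev g h)).trans
        (A.ρ.map_mul h⁻¹ g⁻¹))).trans (repMap_comp _ _) }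

/-- the structure map -/
def lamA : FA A ⊗ (jC.mapAction G).obj (SA A) ⟶ 𝟙_ (Action CF G) :=
  ⟨lamV A.V, fun g => (lamV_nat _ _ (rho_inv A g)).trans (Category.comp_id _).symm⟩

theorem jincl_hom (t : unitInterval) (K : LG G) :
    (jincl (triv LC G) t K).hom = incl t K.V := LC.hom_ext fun _ => rfl

theorem contr_hom {V : Type u} [Category.{v} V] [MonoidalCategory V] [SymmetricCategory V]
    (L : Action V G) {S : Action V G} (lam : L ⊗ S ⟶ 𝟙_ _) :
    (contr₁ L lam).hom = contr₁ L.V lam.hom ∧ (contr₂ L lam).hom = contr₂ L.V lam.hom := by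
  constructor <;> simp [contr₁, contr₂]

/-- **The equivariant rotation homotopy.** -/
theorem rotA (ρ : G →* End (euc n)) (h : ∀ g, IsLin (ρ g)) :
    JHomotopic (triv LC G ⋙ jC.mapAction G)
      (lamA ⟨euc n, ρ⟩ ▷ (FA ⟨euc n, ρ⟩ ⊗ (jC.mapAction G).obj (SA ⟨euc n, ρ⟩)) ≫ (λ_ _).hom)
      ((FA ⟨euc n, ρ⟩ ⊗ (jC.mapAction G).obj (SA ⟨euc n, ρ⟩)) ◁ lamA ⟨euc n, ρ⟩ ≫ (ρ_ _).hom) := by
  refine rot_ofV (triv LC G) (jC.mapAction G) (SA ⟨euc n, ρ⟩) _ _
    ⟨(rotI n).hom, fun g => ?_⟩ ⟨flV n, fun g => ?_⟩ (Action.hom_ext _ _ ?_)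
    (Action.hom_ext _ _ ?_) (Action.hom_ext _ _ ?_)
    ⟨rotV n, fun g => rotV_nat (h g⁻¹) (h g) (rho_inv ⟨euc n, ρ⟩ g)⟩ (Action.hom_ext _ _ ?_)
    (Action.hom_ext _ _ ?_)
  · obtain ⟨T, hT⟩ := h g
    refine LC.hom_ext fun z => ?_
    obtain ⟨⟨x, y⟩, θ⟩ : ((Fin n → ℝ) × (Fin n → ℝ)) × unitInterval := z
    have e1 : LC.app (((ρ g).hom ⊗ₘ (ρ g).hom) ⊗ₘ 𝟙 II)
        (smash (smash (vp x) (vp y)) (θ : OnePoint unitInterval)) =
        smash (smash (vp (T x)) (vp (T y))) (θ : OnePoint unitInterval) := by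
      rw [LC.app_tensorHom_smash, LC.app_tensorHom_smash, hT, hT, LC.app_id]
    have e2 : LC.app (((ρ g).hom ⊗ₘ 𝟙 II) ⊗ₘ (ρ g).hom)
        (smash (smash (vp (rc θ • x - rs θ • y)) (θ : OnePoint unitInterval))
          (vp (rs θ • x + rc θ • y))) =
        smash (smash (vp (rc θ • T x - rs θ • T y)) (θ : OnePoint unitInterval))
          (vp (rs θ • T x + rc θ • T y)) := by
      rw [LC.app_tensorHom_smash, LC.app_tensorHom_smash, hT, hT, LC.app_id, map_add, map_sub,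
        map_smul, map_smul, map_smul, map_smul]
    exact (congrArg (LC.app (rotI n).hom) e1).trans e2.symm
  · obtain ⟨T, hT⟩ := h g
    refine LC.hom_ext fun x => (congrArg (LC.app (flV n)) (hT x)).trans ?_
    exact (congrArg vp (T.map_neg x).symm).trans (hT _).symm
  · exact LC.hom_ext fun x => congrArg vp (neg_neg (G := Fin n → ℝ) x)
  · refine LC.hom_ext fun z => ?_
    obtain ⟨x, y⟩ : (Fin n → ℝ) × (Fin n → ℝ) := z
    change smash (smash (vp (rc 0 • x - rs 0 • y)) ((0 : unitInterval) : OnePoint unitInterval))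
      (vp (rs 0 • x + rc 0 • y)) =
      smash (smash (vp x) ((0 : unitInterval) : OnePoint unitInterval)) (vp y)
    rw [rc_zero, rs_zero, one_smul, zero_smul, one_smul, zero_smul, zero_add, sub_zero]
  · refine LC.hom_ext fun z => ?_
    obtain ⟨x, y⟩ : (Fin n → ℝ) × (Fin n → ℝ) := z
    change smash (smash (vp (rc 1 • x - rs 1 • y)) ((1 : unitInterval) : OnePoint unitInterval))
      (vp (rs 1 • x + rc 1 • y)) =
      smash (smash (vp (-y)) ((1 : unitInterval) : OnePoint unitInterval)) (vp x)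
    rw [rc_one, rs_one, one_smul, zero_smul, one_smul, zero_smul, add_zero, zero_sub]
  · exact (congrArg (fun p => _ ◁ jC.map p ≫ rotV n) (jincl_hom 0 _)).trans
      ((rotV_zero (n := n)).trans (contr_hom _ (lamA ⟨euc n, ρ⟩)).1.symm)
  · exact (congrArg (fun p => _ ◁ jC.map p ≫ rotV n) (jincl_hom 1 _)).trans
      ((rotV_one (n := n)).trans (congrArg (_ ◁ jC.map (flV n) ≫ ·) 
        (contr_hom _ (lamA ⟨euc n, ρ⟩)).2.symm))

end Vale.Agent.P241GK
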