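import Vale.Agent.P241GK.Dict
import Vale.Agent.P241GH.Sh

/-!
# P241G: the model exists
-/

namespace Vale.Agent.P241GK

/-- **There is a model of orthogonal `G`-spectra.** -/
theorem model (G : Type) [Group G] [Finite G] : P241GR.Model G := model_of (P241GH.sh G)

end Vale.Agent.P241GK
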