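import Vale.Agent.P241GK.Def
import Vale.Agent.P241GM.Mod
import Vale.Agent.P251CP.St

/-!
# P241G: the universal elements of `F^a K` in continuous functors with an action
-/

open CategoryTheory MonoidalCategory Topology OnePoint Matrix
open Functor.LaxMonoidal Functor.OplaxMonoidal

noncomputable section

namespace Vale.Agent.P241GK

open P251.H P251CA P251CA.CF P241GA P241GX P241GP P241GR P241GA.GIn
open P251.G (LC)
open P251.G.LC (ofHomeo smash)
open P251CX (OSp Emb ap)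
open P251CP (Cr)
open P241.St (GSpace)
open P241Z (reg)
open Sp0 (euc smp)

variable (G : Type) [Group G] [Finite G]

/-- continuous functors with an action -/
abbrev CG : Type 1 := Action CF G

scoped instance ginC : GIn G (CG G) :=
  P241GM.mkGIn jC isZero_F_empty (fun _ _ _ _ hi h => isPushout_F_LCPQ hi h) (FG G) (SA (AG G 1))
    (eG G) (lamA (AG G 1)) (fun X K => ev0_bij _ K X) (rotA _ (isLin_rhoG G 1))
    fun n K => fin_tf0 _ K n

/-- the level zero -/
def z0 : 𝟙_ Sp0 ≅ lev G 0 := (𝟙_ Sp0).toEuc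

omit [Group G] in
theorem dot_cons (a : ℕ) (s s' : Fin 1 → G → ℝ) (t t' : Fin a → G → ℝ) :
    cd (vecCons (s 0) t) ⬝ᵥ cd (vecCons (s' 0) t') = cd s ⬝ᵥ cd s' + cd t ⬝ᵥ cd t' := by
  have := Fintype.ofFinite G
  simp only [dot_cd, Fin.sum_univ_succ, cons_val_zero, cons_val_succ, Finset.univ_eq_empty,
    Finset.sum_empty, add_zero]

/-- the coordinates on `ρ ⊕ a ρ` -/
def cnH (a : ℕ) : (Fin (Nat.card G * 1) → ℝ) × (Fin (Nat.card G * a) → ℝ) ≃ₜ
    (Fin (Nat.card G * (a + 1)) → ℝ) where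
  toFun p := cd (vecCons (dc p.1 0) (dc p.2) : Fin (a + 1) → G → ℝ)
  invFun z := (cd fun _ : Fin 1 => dc (G := G) (a := a + 1) z 0,
    cd (vecTail (dc (G := G) (a := a + 1) z)))
  left_inv p := by
    simp only [dc_cd, cons_val_zero, tail_cons, cd_dc]
    exact Prod.ext ((congrArg cd (funext fun i => congrArg (dc p.1)
      (Subsingleton.elim (0 : Fin 1) i))).trans (cd_dc p.1)) rfl
  right_inv z := by
    simp only [dc_cd]
    exact (congrArg cd (cons_head_tail _)).trans (cd_dc z)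
  continuous_toFun := continuous_cd.comp (Continuous.matrixVecCons
    ((continuous_apply 0).comp (continuous_dc.comp continuous_fst))
    (continuous_dc.comp continuous_snd))
  continuous_invFun := (continuous_cd.comp (continuous_pi fun _ =>
    (continuous_apply 0).comp continuous_dc)).prodMk (continuous_cd.comp
      (continuous_pi fun i => (continuous_apply i.succ).comp continuous_dc))

omit [Group G] in
theorem cnH_dot (a : ℕ) (p q : (Fin (Nat.card G * 1) → ℝ) × (Fin (Nat.card G * a) → ℝ)) :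
    cnH G a p ⬝ᵥ cnH G a q = p.1 ⬝ᵥ q.1 + p.2 ⬝ᵥ q.2 :=
  (dot_cons G a _ _ _ _).trans (by rw [cd_dc, cd_dc, cd_dc, cd_dc])

/-- `ρ ⊕ a ρ = (a + 1) ρ` -/
def cn (a : ℕ) : lev G 1 ⊗ lev G a ≅ lev G (a + 1) :=
  Sp0.isoMk (ofHomeo (X := (lev G 1 ⊗ lev G a).s) (Y := (lev G (a + 1)).s) (cnH G a))
    (.of (cnH G a) (fun _ => rfl) (cnH_dot G a))
    (.of (cnH G a).symm (fun _ => rfl) fun x y => (cnH_dot G a _ _).symm.trans
      (congrArg₂ dotProduct ((cnH G a).apply_symm_apply x) ((cnH G a).apply_symm_apply y)))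

variable {G}

omit [Group G] in
theorem app_cn {a : ℕ} (s : Fin 1 → G → ℝ) (t : Fin a → G → ℝ) :
    LC.app (cn G a).hom.hom (smp (a := lev G 1) (b := lev G a) (vp (cd s)) (vp (cd t))) =
      vp (cd (vecCons (s 0) t)) :=
  congrArg vp (congrArg cd (congrArg₂ vecCons (congrFun (dc_cd s) 0) (dc_cd t)))

theorem cn_rho (a : ℕ) (g : G) :
    (cn G a).hom ≫ rhoG G (a + 1) g = (rhoG G 1 g ⊗ₘ rhoG G a g) ≫ (cn G a).hom := by
  refine Sp0.app_ext fun z => ?_
  obtain ⟨x, y⟩ : (Fin (Nat.card G * 1) → ℝ) × (Fin (Nat.card G * a) → ℝ) := z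
  obtain ⟨s, rfl⟩ := cd_surj x
  obtain ⟨t, rfl⟩ := cd_surj y
  refine (congrArg (LC.app (rhoG G (a + 1) g).hom) (app_cn s t)).trans ((app_rhoG g _).trans ?_)
  refine Eq.trans ?_ (congrArg (LC.app (cn G a).hom.hom) ((Sp0.app_tensorHom_smp _ _
    (vp (cd s)) (vp (cd t))).trans (congrArg₂ smp (app_rhoG g s) (app_rhoG g t)))).symm
  refine Eq.trans (congrArg (fun z => vp (cd z)) (funext fun i => ?_)) (app_cn _ _).symm
  exact Fin.cases rfl (fun _ => rfl) i

/-- the underlying continuous functor of `F^a K` -/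
abbrev TV (a : ℕ) (K : LG G) : CF := ((TF (CG G) a).obj K).V

/-- the universal element -/
def uel : (a : ℕ) → (K : LG G) → (PQ.ofLC K.V ⟶ (TV a K).obj (lev G a))
  | 0, K => Funit (PQ.ofLC K.V) ≫ (jC.obj K.V).map (z0 G).hom
  | a + 1, K => (uel a K ≫ P251CP.ap (repCurry (𝟙 (rep (lev G 1) ⊗ TV a K))) (lev G a)) ≫
      (rep (lev G 1) ⊗ TV a K).map (cn G a).hom

/-- the universal element -/
def ue (a : ℕ) {K : LG G} (k : OnePoint K.V) : OnePoint ((TV a K).obj (lev G a)) :=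
  PQ.app (uel a K) k

theorem ue_zero {K : LG G} (k : OnePoint K.V) :
    ue 0 k = (jC.obj K.V).act (z0 G).hom (jm k pu) := rfl

theorem ue_succ (a : ℕ) {K : LG G} (k : OnePoint K.V) :
    ue (a + 1) k = (rep (lev G 1) ⊗ TV a K).act (cn G a).hom (tm (pr (𝟙 _)) (ue a k)) := rfl

theorem cr_uel (a : ℕ) (K : LG G) : Cr (uel a K) := by
  induction a with
  | zero => exact Cr.act (E := jC.obj K.V) (fun X => (FEquiv (PQ.ofLC K.V) X).bijective) (z0 G)
  | succ a ih =>
    exact Cr.act (E := rep (lev G 1) ⊗ TV a K) (u := uel a K ≫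
      P251CP.ap (repCurry (𝟙 (rep (lev G 1) ⊗ TV a K))) (lev G a))
      (fun X => (ih ((sh (lev G 1)).obj X)).comp (repEquiv _ _ X).bijective) (cn G a)

theorem ue_nat (a : ℕ) {K K' : LG G} (p : K ⟶ K') (k : OnePoint K.V) :
    fn ((TF (CG G) a).map p).hom (ue a k) = ue a (LC.app p.hom k) := by
  induction a with
  | zero => exact (fn_act (jC.map p.hom) _ _).trans (congrArg _ (fn_jC_map p.hom k pu))
  | succ a ih =>
    exact (fn_act (rep (lev G 1) ◁ ((TF (CG G) a).map p).hom) _ _).trans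
      (congrArg _ ((whiskerLeft_tm _ _ _ _).trans (congrArg _ ih)))

theorem ue_eqv (a : ℕ) {K : LG G} (g : G) (k : OnePoint K.V) :
    ue a (LC.app (K.ρ g) k) =
      (TV a K).act (rhoG G a g) (fn (((TF (CG G) a).obj K).ρ g) (ue a k)) := by
  induction a with
  | zero =>
    have h : (rhoG G 0 g : lev G 0 ⟶ lev G 0) = 𝟙 _ := lev_ext fun s =>
      (app_rhoG g s).trans (congrArg (fun z => vp (cd z)) (Subsingleton.elim _ _))
    rw [h, act_id]
    exact ((fn_act (jC.map (K.ρ g)) _ _).trans (congrArg _ (fn_jC_map (K.ρ g) k pu))).symm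
  | succ a ih =>
    have h : fn (repMap (rhoG G 1 g⁻¹) ⊗ₘ ((TF (CG G) a).obj K).ρ g)
        ((rep (lev G 1) ⊗ TV a K).act (cn G a).hom (tm (pr (𝟙 _)) (ue a k))) =
        (rep (lev G 1) ⊗ TV a K).act (cn G a).hom (tm (pr (rhoG G 1 g⁻¹))
          (fn (((TF (CG G) a).obj K).ρ g) (ue a k))) := by
      rw [fn_act, tensorHom_tm, fn_repMap_pr, Category.comp_id]
    refine Eq.trans ?_ (congrArg ((rep (lev G 1) ⊗ TV a K).act (rhoG G (a + 1) g)) h).symm
    have h2 := rho_inv (AG G 1) g⁻¹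
    rw [inv_inv] at h2
    rw [← act_comp, cn_rho, act_comp, act_tm, rep_act, ← ih]
    exact congrArg (fun w => (rep (lev G 1) ⊗ TV a K).act (cn G a).hom
      (tm (pr w) (ue a (LC.app (K.ρ g) k)))) h2.symm

/-- the underlying morphism of `tfR` -/
def tR (a : ℕ) (K K' : LG G) : TV a K ⊗ jC.obj K'.V ⟶ TV a (K ⊗ K') :=
  (tfR (CG G) a K K').hom.hom

/-- the underlying morphism of `tfL` -/
def tL (a : ℕ) (K' K : LG G) : jC.obj K'.V ⊗ TV a K ⟶ TV a (K' ⊗ K) :=
  (tfL (CG G) a K' K).hom.hom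

theorem fn_tR (a : ℕ) {K K' : LG G} (k : OnePoint K.V) (k' : OnePoint K'.V) :
    fn (tR a K K') (tm (ue a k) (jm k' pu)) =
      (TV a (K ⊗ K')).act (ρ_ (lev G a)).inv (ue a (K := K ⊗ K') (smash k k')) := by
  induction a with
  | zero =>
    have h : fn (μ jC K.V K'.V) (tm (jm k pu) (jm k' pu)) =
        (jC.obj (K.V ⊗ K'.V)).act (λ_ (𝟙_ Sp0)).inv (jm (K := K.V ⊗ K'.V) (smash k k') pu) := by
      rw [← ((jC.obj K.V ⊗ jC.obj K'.V).act_hom_inv (λ_ (𝟙_ Sp0)) (tm (jm k pu) (jm k' pu))),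
        ← fn_δ_jC, fn_act, ← fn_comp, Functor.Monoidal.δ_μ, fn_id]
    refine (congrArg (fn (μ jC K.V K'.V)) (act_tm_left (z0 G).hom (jm k pu) (jm k' pu)).symm).trans
      ((fn_act _ _ _).trans ((congrArg _ h).trans ?_))
    refine (act_comp _ _ _ _).symm.trans (Eq.trans ?_ (act_comp _ _ _ _))
    rw [unitors_inv_equal, rightUnitor_inv_naturality]
    rfl
  | succ a ih =>
    have h : tR (a + 1) K K' = (α_ (rep (lev G 1)) (TV a K) (jC.obj K'.V)).hom ≫
        rep (lev G 1) ◁ tR a K K' :=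
      congrArg (· ≫ rep (lev G 1) ◁ tR a K K')
        (Action.associator_hom_hom (FG G) ((TF (CG G) a).obj K) ((JG (CG G)).obj K'))
    refine (congrArg (fun f => fn f _) h).trans ?_
    refine (congrArg (fn ((α_ (rep (lev G 1)) (TV a K) (jC.obj K'.V)).hom ≫
      rep (lev G 1) ◁ tR a K K'))
      (act_tm_left (cn G a).hom (tm (pr (𝟙 _)) (ue a k)) (jm k' pu)).symm).trans ?_
    rw [fn_act, fn_comp, associator_tm, fn_act, whiskerLeft_tm, ih, ← act_tm_right, ← act_comp,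
      ← act_comp]
    refine Eq.trans ?_ (act_comp _ _ _ _)
    rw [rightUnitor_inv_naturality, whiskerLeft_rightUnitor_inv]
    simp only [Category.assoc, Iso.hom_inv_id_assoc]
    rfl

theorem fn_tL (a : ℕ) {K K' : LG G} (k' : OnePoint K'.V) (k : OnePoint K.V) :
    fn (tL a K' K) (tm (jm k' pu) (ue a k)) =
      (TV a (K' ⊗ K)).act (λ_ (lev G a)).inv (ue a (K := K' ⊗ K) (smash k' k)) := by
  change fn ((β_ (jC.obj K'.V) (TV a K)).hom ≫ tR a K K' ≫
    ((TF (CG G) a).map (β_ K K').hom).hom) _ = _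
  rw [fn_comp, braiding_tm, fn_act, fn_comp, fn_tR, fn_act, ue_nat, ← act_comp,
    rightUnitor_inv_braiding]
  exact congrArg (fun z => (TV a (K' ⊗ K)).act (λ_ (lev G a)).inv (ue a (K := K' ⊗ K) z))
    (LC.app_braiding_smash K.V K'.V k k')

theorem fn_stb (a : ℕ) (K : GSpace G) (v : G → ℝ) (x : K.carrier)
    (h : Emb (Nat.card G * a) (Nat.card G * (a + 1))) (hh : ∀ s, ap h (cd s) = cd (vecCons v s)) :
    fn (stb (CG G) a K).hom (ue (a + 1) (K := gl ((reg G).prod K)) (.some (v, x))) =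
      (TV a (gl K)).act (em h) (ue a (K := gl K) (.some x)) := by
  let c := lev G 1
  let e : (Vg G).V ⟶ c.s := (eG G).hom.hom
  let y := tm (tm (pr (𝟙 c)) (jm (K := (Vg G).V) (.some v) pu)) (ue a (K := gl K) (.some x))
  have h1 : (vIso (CG G) a K).hom.hom = (α_ (rep c) (jC.obj (Vg G).V) (TV a (gl K))).hom ≫
      rep c ◁ (tL a (Vg G) (gl K) ≫ ((TF (CG G) a).map (glProd (reg G) K).hom).hom) :=
    congrArg (· ≫ rep c ◁ (tL a (Vg G) (gl K) ≫ ((TF (CG G) a).map (glProd (reg G) K).hom).hom))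
      (Action.associator_hom_hom (FG G) ((JG (CG G)).obj (Vg G)) ((TF (CG G) a).obj (gl K)))
  have h2 : fn ((α_ (rep c) (jC.obj (Vg G).V) (TV a (gl K))).hom ≫
      rep c ◁ (tL a (Vg G) (gl K) ≫ ((TF (CG G) a).map (glProd (reg G) K).hom).hom))
      (((rep c ⊗ jC.obj (Vg G).V) ⊗ TV a (gl K)).act
        ((α_ _ _ _).hom ≫ c ◁ (λ_ _).hom ≫ (cn G a).hom) y) =
      ue (a + 1) (K := gl ((reg G).prod K)) (.some (v, x)) := by
    rw [fn_act, fn_comp, associator_tm, fn_act, whiskerLeft_tm, fn_comp, fn_tL, fn_act, ue_nat,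
      ← act_tm_right, ← act_comp, ← act_comp, Iso.inv_hom_id_assoc, ← whiskerLeft_comp_assoc,
      Iso.inv_hom_id, whiskerLeft_id, Category.id_comp]
    rfl
  have h3 : (vIso (CG G) a K).hom.hom ≫ (stb (CG G) a K).hom =
      (rep c ◁ jC.map e ≫ lamV c) ▷ TV a (gl K) ≫ (λ_ (TV a (gl K))).hom :=
    (congrArg Action.Hom.hom ((vIso (CG G) a K).hom_inv_id_assoc _)).trans
      (congrArg ((rep c ◁ jC.map e ≫ lamV c) ▷ TV a (gl K) ≫ ·)
        (Action.leftUnitor_hom_hom ((TF (CG G) a).obj (gl K))))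
  have h4 : fn ((rep c ◁ jC.map e ≫ lamV c) ▷ TV a (gl K) ≫ (λ_ (TV a (gl K))).hom)
      (((rep c ⊗ jC.obj (Vg G).V) ⊗ TV a (gl K)).act
        ((α_ _ _ _).hom ≫ c ◁ (λ_ _).hom ≫ (cn G a).hom) y) =
      (TV a (gl K)).act (em h) (ue a (K := gl K) (.some x)) := by
    rw [fn_act, fn_comp, whiskerRight_tm, fn_comp, whiskerLeft_tm, fn_jC_map, lamV_tm,
      leftUnitor_tm, ← act_comp]
    refine congrArg ((TV a (gl K)).act · _) (lev_ext fun s => ?_)
    simp only [Sp0.comp_hom, LC.app_comp]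
    rw [Sp0.app_leftUnitor_inv, Sp0.app_whiskerRight_smp]
    refine (congrArg (fun z => LC.app (cn G a).hom.hom (LC.app (c ◁ (λ_ (lev G a)).hom).hom z))
      (Sp0.app_associator_smp (a := c) (vp (cd fun _ : Fin 1 => v)) pu (vp (cd s)))).trans ?_
    rw [Sp0.app_whiskerLeft_smp, Sp0.app_leftUnitor_smp]
    exact (app_cn _ s).trans (congrArg vp (hh s).symm)
  refine (congrArg (fn (stb (CG G) a K).hom) (h2.symm.trans (congrArg (fun f => fn f _)
    h1.symm))).trans ?_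
  exact (congrArg (fun f => fn f _) h3).trans h4

end Vale.Agent.P241GK
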